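import Vale.Agent.P307.R2.H844.JrStep
import Vale.Agent.P307.R2.H83.Trans
import Vale.Agent.P307.R2.H287.TinyR
import Vale.Agent.P307.R2.H806.RealX

/-!
Dimensions in which the tops exist: scaffolds which are conjugate to standard families, joint
reflection over the closed traces of an arbitrary model, and the shrinking of the isolating sets for
the atomic tops.
-/

universe u v w

open Set Cardinal Function

namespace Vale.Agent.P307.R2.H844

open Vale.Agent.P307.R2.H541 Vale.Agent.P307.R2.H541.PG Vale.Agent.P307.R2.H533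
open Vale.Agent.P307.R2.H68 (Clo exists_clo)
open Vale.Agent.P307.R2.H301 (TrN clo_left clo_right)
open Vale.Agent.P307.R2.H578 Vale.Agent.P307.R2.H83 Vale.Agent.P307.R2.H650

open scoped Classical

variable {ι : Type v} {C : Type u} {M : PG C} {τ : Cardinal.{u}}
  {A P : Finset ι → Set C} {F F' : Finset (Finset ι)} {r s : Finset ι} {Q H N Y X : Set C}

/-- **Joint reflection** over the closed traces of a set `Y`, from scaffolds whose last families
move into their closed traces over the pieces of `Y`. -/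
theorem jr_of_scafY {S' : Set (Set C)} {n : ℕ} (hM : M.Calc) (hT : TwoLv M τ S')
    (hSH : ∀ j < n, SHa M τ ι j) (hsn : s.card = n)
    (hsc : ∀ d < τ, ∃ m P r Q N, Y ⊆ N ∧ Scaf M A s.ssubsets N m P r Q ∧
      ShiftY M τ d (P m) s.ssubsets Y) : JRp M τ A s.ssubsets Y := by
  have hτ := hT.ap
  have hτM := hT.lt.le
  obtain ⟨φ, h1, h2⟩ := exists_clo_lt hτ (P := fun d H => ∀ E ⊆ iun A s.ssubsets, #E ≤ d →
    ∀ q ⊆ Y ∩ H, #q ≤ d → ∃ g ∈ M.G, (∀ x ∈ q, g x = x) ∧
      ∀ v ∈ s.ssubsets, ∀ e ∈ E, e ∈ A v → g e ∈ A v ∩ H) fun d hd => by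
    obtain ⟨m, P, r, Q, N, hYN, hS, φ₁, h1, h2⟩ := hsc d hd
    obtain ⟨φ₂, h3, h4⟩ := exists_clo_fin' (J := ℕ) (Finset.range m) hτ (P := fun i H =>
      Cl2 M τ (P i) (P (i + 1)) s.ssubsets (r i) (Q i) H) fun i hi =>
        exists_cl2 hM hT hSH (hS.blk i (Finset.mem_range.1 hi)) (hS.ne i (Finset.mem_range.1 hi))
          fun w hw => by
            rw [← hsn]
            exact Finset.card_lt_card (Finset.mem_ssubsets.1 hw)
    refine ⟨fun s => φ₁ s ∪ φ₂ s, fun s => (mk_union_le _ _).trans ((add_le_add (h1 s)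
      (h3 s)).trans (add_eq_self hτ).le), fun H hH hHc E hE hEc q hq hqc => ?_⟩
    have hle : ∀ j ≤ m, ∀ v ∈ s.ssubsets, P 0 v ⊆ P j v := by
      intro j
      induction j with
      | zero => exact fun _ _ _ => Subset.rfl
      | succ j ih => exact fun hj v hv => (ih (Nat.le_of_lt hj) v hv).trans ((hS.blk j hj).le hv)
    have hEm : ∀ v ∈ s.ssubsets, ∀ e ∈ E, e ∈ A v → e ∈ P m v := fun v hv e _ hev => by
      rw [← hS.zero v hv] at hev
      exact hle m le_rfl v hv hev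
    obtain ⟨g, hg, h5, h6⟩ := h2 H (clo_left hH) hHc E (by
      intro x hx
      obtain ⟨v, hv, hxv⟩ := hE hx
      exact ⟨v, hv, hEm v hv x hx hxv⟩) hEc q hq hqc
    obtain ⟨k, hk, h7, h8⟩ := peel_all (N := N) (H := H) hM hτ hτM m P r Q hS.blk hS.sub
      (fun i hi => h4 H (clo_right hH) hHc i (Finset.mem_range.2 hi)) m le_rfl (g '' E) (by
        rintro _ ⟨x, hx, rfl⟩
        obtain ⟨v, hv, hxv⟩ := hE hx
        have h9 := h6 v hv x hx (hEm v hv x hx hxv)
        exact ⟨⟨v, hv, h9.1⟩, h9.2⟩) (mk_image_le.trans_lt (hEc.trans_lt hd)) q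
      (hq.trans (inter_subset_inter_left H hYN)) (hqc.trans_lt hd)
    refine ⟨k * g, M.G.mul_mem hk hg, fun x hx => ?_, fun v hv e he hev => ?_⟩
    · rw [Equiv.Perm.mul_apply, h5 x hx, h7 x hx]
    · rw [Equiv.Perm.mul_apply]
      have h9 := h8 v hv _ ⟨e, he, rfl⟩ (h6 v hv e he (hEm v hv e he hev)).1
      rwa [hS.zero v hv] at h9
  refine ⟨φ, h1, fun H hH hHc E hE hEc q hq hqc => ?_⟩
  exact h2 H hH hHc (max #E #q) (max_lt hEc hqc) E hE (le_max_left _ _) q hq (le_max_right _ _)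

/-- Shifts of a conjugate family. -/
theorem ShiftD.smul {T : Finset ι → Set C} {d : Cardinal.{u}} (h : ShiftD M τ d T F)
    {g : Equiv.Perm C} (hg : g ∈ M.G) (hPT : ∀ v ∈ F, g '' P v = T v) : ShiftD M τ d P F := by
  obtain ⟨φ, h1, h2⟩ := h
  refine ⟨fun s => (g⁻¹ : Equiv.Perm C) '' φ (s.image g), fun s => mk_image_le.trans (h1 _),
    fun H hH hHc E hE hEc q hq hqc => ?_⟩
  have hgH : Clo φ (g '' H) := by
    intro s hs x hx
    have h3 : ((s.image (g⁻¹ : Equiv.Perm C) : Finset C) : Set C) ⊆ H := by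
      intro y hy
      obtain ⟨z, hz, rfl⟩ := Finset.mem_image.1 (Finset.mem_coe.1 hy)
      obtain ⟨y, hy, hyz⟩ := hs hz
      rw [← hyz, inv_ap]
      exact hy
    have h4 : (g⁻¹ : Equiv.Perm C) '' φ ((s.image (g⁻¹ : Equiv.Perm C)).image g) ⊆ H := hH _ h3
    have h5 : (s.image (g⁻¹ : Equiv.Perm C)).image g = s := by
      ext y
      simp only [Finset.mem_image]
      constructor
      · rintro ⟨_, ⟨z, hz, rfl⟩, rfl⟩
        rw [ap_inv]
        exact hz
      · intro hy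
        exact ⟨_, ⟨y, hy, rfl⟩, ap_inv g y⟩
    rw [h5] at h4
    exact ⟨_, h4 ⟨x, hx, rfl⟩, ap_inv g x⟩
  obtain ⟨k, hk, h3, h4⟩ := h2 (g '' H) hgH (mk_image_le.trans hHc) (g '' E) (by
    rintro _ ⟨x, hx, rfl⟩
    obtain ⟨v, hv, hxv⟩ := hE hx
    exact ⟨v, hv, by rw [← hPT v hv]; exact mem_image_of_mem g hxv⟩) (mk_image_le.trans hEc)
    (g '' q) (image_mono hq) (mk_image_le.trans hqc)
  refine ⟨g⁻¹ * k * g, M.G.mul_mem (M.G.mul_mem (M.G.inv_mem hg) hk) hg, fun x hx => ?_,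
    fun v hv e he hev => ?_⟩
  · rw [Equiv.Perm.mul_apply, Equiv.Perm.mul_apply, h3 _ (mem_image_of_mem g hx), inv_ap]
  · rw [Equiv.Perm.mul_apply, Equiv.Perm.mul_apply]
    obtain ⟨h5, y, hy, h6⟩ := h4 v hv (g e) (mem_image_of_mem g he) (by
      rw [← hPT v hv]
      exact mem_image_of_mem g hev)
    rw [← h6, inv_ap]
    refine ⟨?_, hy⟩
    rw [← h6, ← hPT v hv] at h5
    obtain ⟨z, hz, hzy⟩ := h5
    rwa [← g.injective hzy]

/-- Restriction of the generators of standard families. -/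
theorem StdGen.mono' {β : Type w} {St : (Finset ι → β) → Finset ι → Set C}
    (h : StdGen M F St) (hF : F' ⊆ F) : StdGen M F' St :=
  ⟨fun b v hv => h.mem b v (hF hv), fun b v hv => h.mono b v (hF hv),
    fun b b' v hv => h.loc b b' v (hF hv), h.conj, fun b v hv => h.gap b v (hF hv),
    fun b v hv => h.ref b v (hF hv)⟩

/-- The size of a finite union. -/
theorem mk_iun_le' (F : Finset (Finset ι)) (h : ∀ v ∈ F, #(A v) ≤ M.χ) : #(iun A F) ≤ M.χ := by
  induction F using Finset.induction_on with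
  | empty =>
    have h1 : iun A (∅ : Finset (Finset ι)) = ∅ := by
      ext x
      simp [iun]
    rw [h1]
    simp
  | insert w F _ ih =>
    rw [iun_insert]
    exact (mk_union_le _ _).trans (add_le_of_le M.hχ (h w (Finset.mem_insert_self w F))
      (ih fun v hv => h v (Finset.mem_insert_of_mem hv)))

/-- **Full scaffolds**, in the dimensions in which the standard families are fully reflected. -/
theorem exists_full_scaf {β : Type w} (hM : M.Calc)
    (hls : ∀ X : Set C, #X ≤ M.χ → ∃ N ∈ M.S, X ⊆ N) (hF : FreeM M) (hR : M.Real)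
    (hs : s.Nonempty) (hMd : ∀ j, 1 ≤ j → j + 1 < s.card → Md M ι j)
    {St : (Finset ι → β) → Finset ι → Set C} (hSt : StdGen M s.powerset St)
    (hTm : ∀ b, M.Tm (iun (St b) s.ssubsets)) (hA : IFam M A s.ssubsets)
    (hRA : IRef M A s.ssubsets) {N : Set C} (hN : #N ≤ M.χ) :
    ∃ (m : ℕ) (P : ℕ → Finset ι → Set C) (r : ℕ → Finset ι) (Q : ℕ → Set C) (b : Finset ι → β),
      Scaf M A s.ssubsets N m P r Q ∧ ∃ g ∈ M.G, ∀ v ∈ s.ssubsets, g '' P m v = St b v := by
  have hsub : s.ssubsets ⊆ s.powerset := fun v hv =>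
    Finset.mem_powerset.2 (Finset.mem_ssubsets.1 hv).1
  have hcard : ∀ v ∈ s.ssubsets, v.card < s.card := fun v hv =>
    Finset.card_lt_card (Finset.mem_ssubsets.1 hv)
  obtain ⟨m, P, r, Q, b, φ, h1, h2, h3, h4, h5⟩ := exists_scaf hM hls hF
    (fun j hj v hv hjv => hMd j hj (by have := hcard v hv; omega)) (StdGen.mono' hSt hsub) hA hRA hN
  refine ⟨m, P, r, Q, b, h1, ?_⟩
  have hGDI : ∀ v ∈ s.ssubsets, 2 ≤ v.card → GDI M ι v.card := fun v hv _ =>
    gdi_of_md hM hls v.card fun j hj hjv => hMd j hj (by have := hcard v hv; omega)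
  have hT : IFam M (St b) s.ssubsets := ⟨down_ssubsets hs, fun v hv => hSt.mem b v (hsub hv),
    fun v hv => hSt.mono b v (hsub hv)⟩
  have hTR : IRef M (St b) s.ssubsets := hSt.ref b s (Finset.mem_powerset_self s) hs
  have hLE := h5.le hM h2 h3 hT hTR hGDI
  have himg := h5.umap_img h2 h3
  have hc : #(iun (P m) s.ssubsets) ≤ M.χ :=
    mk_iun_le' s.ssubsets fun v hv => (M.S_card (h2.mem v hv)).le
  obtain ⟨N', hN', hN'2⟩ := hls _ hc
  obtain ⟨g, hg, h6⟩ := LE.exists_aut hR hN' hN'2 hLE (by rw [himg]; exact hTm b)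
  refine ⟨g, hg, fun v hv => ?_⟩
  rw [← h5.img v hv]
  refine image_congr fun a ha => ?_
  rw [h6 a ⟨v, hv, ha⟩, h5.umap_eq h2 h3 hv ha]

/-- Shrinking of the isolating sets of the tiny pieces of an atomic top, from joint reflection over
the closed traces of the top. -/
theorem exists_trN {S' : Set (Set C)} (hT : TwoLv M τ S') (hno : H296.NoOrd M.G τ)
    (hN : M.Atomic N (ibd A s)) (hJ : JRp M τ A s.ssubsets N)
    (htiny : ∀ E ⊆ N, #E < τ → ∃ B ⊆ ibd A s, #B < τ ∧ M.Isol B (ibd A s) E) :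
    ∃ ψ, TrN M τ (ibd A s) N ψ := by
  have hτ := hT.ap
  have hτM := hT.lt.le
  obtain ⟨φ₁, h1, h2⟩ := hT.ec N hN.mem
  obtain ⟨φ₂, h3, h4⟩ := hJ
  refine ⟨fun s => φ₁ s ∪ φ₂ s, fun s => (mk_union_le _ _).trans ((add_le_add (h1 s)
    (h3 s)).trans (add_eq_self hτ).le), fun H hH hHc e he hec _ => ?_⟩
  have h5 := (h2 H (clo_left hH) hHc).2
  have h6 := h4 H (clo_right hH) hHc
  refine exists_isol_tr hτ hτM hno hN.sub (H := H) ?_ ?_
    (fun E hE hEc => htiny E (hE.trans inter_subset_left) hEc) e he hec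
  · intro q hq hqc B hB hBc
    obtain ⟨g, hg, h7, h8⟩ := h6 B (by rw [iun_ssubsets]; exact hB) hBc q hq hqc
    refine ⟨g, hg, h7, fun b hb => ?_⟩
    obtain ⟨v, hv, hbv⟩ := hB hb
    have h9 := h8 v (Finset.mem_ssubsets.2 hv) b hb hbv
    exact ⟨⟨v, hv, h9.1⟩, h9.2⟩
  · intro q hq hqc E hEc
    obtain ⟨g, hg, h7, h8⟩ := M.sat hN.mem (hq.trans inter_subset_left)
      (hqc.trans_le hτM) (hEc.trans_le hτM)
    obtain ⟨k, hk, h9, h10⟩ := h5 (g '' E) (by
      rintro _ ⟨e, he, rfl⟩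
      exact h8 e he) (mk_image_le.trans_lt hEc) q (hq.trans inter_subset_right) hqc
    refine ⟨k * g, M.G.mul_mem hk hg, fun x hx => ?_, fun d hd => ?_⟩
    · rw [Equiv.Perm.mul_apply, h7 x hx, h9 x hx]
    · exact h10 _ ⟨d, hd, rfl⟩

end Vale.Agent.P307.R2.H844
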