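import Vale.Agent.P307.R2.H533.EnlEx
import Vale.Agent.P307.R2.H806.TwoTr

/-!
Peeling of the blocks of a scaffold on the closed traces: the new faces move into the old faces
inside a closed set, over the pieces of the closed set. All the reflections of the whole family take
place at the upper level.
-/

universe u v

open Set Cardinal Function

namespace Vale.Agent.P307.R2.H844

open Vale.Agent.P307.R2.H541 Vale.Agent.P307.R2.H541.PG Vale.Agent.P307.R2.H533

open scoped Classical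

variable {ι : Type v} {C : Type u} {M : PG C} {τ : Cardinal.{u}}
  {A P : Finset ι → Set C} {F F' : Finset (Finset ι)} {r : Finset ι} {Q H N : Set C}

/-- The old faces and the smaller new faces are elementary in the union of `Q` and of the new faces
of a part of the family. -/
theorem tv_nbd (h : Blk M A P F r Q) (hF' : Down F') (hsub : F' ⊆ F) (h0 : lowf F r ⊆ F')
    (hR : Blk.KeyR M A P F F' r Q) {w₁ : Finset ι} (hw₁ : w₁ ∈ F) (hw₁' : w₁ ∉ F')
    (hw : ∀ q, q ⊂ w₁ → q ∈ F') : M.TV (nbd A P r w₁) (Q ∪ iun P F') := by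
  have hrw : r ⊂ w₁ := ssubset_of_notMem_lowf hw₁ fun h1 => hw₁' (h0 h1)
  intro y hy hyc D hD hDc
  obtain ⟨g, hg, h1, h2, h3⟩ := hR w₁ (y ∪ (D ∩ iun P F')) (by
    rintro x (hx | hx)
    · rcases hy hx with h4 | ⟨q, hq1, hq2, hxq⟩
      · exact Or.inl ⟨w₁, hw₁, h4⟩
      · exact Or.inr ⟨q, hw q hq2, hxq⟩
    · exact Or.inr hx.2) (small_union hyc (small_inter_left _ hDc)) (D ∩ Q) inter_subset_right
    (small_inter_left _ hDc)
  refine ⟨g, hg, fun a ha => ?_, fun d hd => ?_⟩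
  · rcases hy ha with h4 | ⟨q, hq1, hq2, hxq⟩
    · exact (h1 w₁ hw₁ a (Or.inl ha) h4).2 (Finset.Subset.refl _)
    · exact (h2 q (hw q hq2) a (Or.inl ha) hxq).2 hq2.1
  · rcases hD hd with h4 | h4
    · exact Or.inl (h3 hw₁ hrw.1 d ⟨hd, h4⟩)
    · obtain ⟨v, hv, hdv⟩ := h4
      have h5 := (h2 v hv d (Or.inr ⟨hd, v, hv, hdv⟩) hdv).1
      by_cases h6 : r ⊆ v ∩ w₁
      · refine Or.inr ⟨v ∩ w₁, h6, ?_, h5⟩
        refine lt_of_le_of_ne Finset.inter_subset_right fun h7 => hw₁' (hF'.2 v hv w₁ ?_)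
        rw [← h7]
        exact Finset.inter_subset_left
      · rw [h.same _ (h.fam.down.2 v (hsub hv) _ Finset.inter_subset_left) h6] at h5
        exact Or.inl (h.fam.mono w₁ hw₁ _ Finset.inter_subset_right h5)

/-- The reflections upstairs for a part of the new faces. -/
theorem keyR_part (hM : M.Calc) (h : Blk M A P F r Q) (hsub : F' ⊆ F) :
    Blk.KeyR M A P F F' r Q := by
  intro w E hE hEc D hD hDc
  obtain ⟨g, hg, h1, h2, h3⟩ := (h.key hM).1 w E (hE.trans (union_subset_union_right _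
    (iun_mono hsub))) hEc D hD hDc
  exact ⟨g, hg, h1, fun v hv => h2 v (hsub hv), h3⟩

/-- The hypotheses on the closed set `H`, for one block. -/
structure Cl2 (M : PG C) (τ : Cardinal.{u}) (A P : Finset ι → Set C) (F : Finset (Finset ι))
    (r : Finset ι) (Q H : Set C) : Prop where
  /-- The tiny pieces of the enlarged face move into its trace. -/
  ec : ∀ E ⊆ A r, #E < τ → ∀ q ⊆ Q ∩ H, #q < τ →
    ∃ g ∈ M.G, (∀ x ∈ q, g x = x) ∧ ∀ e ∈ E, g e ∈ A r ∩ H
  /-- The traces of the old faces above the enlarged face realize the tiny types. -/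
  sat : ∀ w ∈ F, r ⊂ w → ∀ q ⊆ A w ∩ H, #q < τ → ∀ E : Set C, #E < τ →
    ∃ g ∈ M.G, (∀ x ∈ q, g x = x) ∧ ∀ e ∈ E, g e ∈ A w ∩ H
  /-- The tiny pieces of the traces of the new faces are isolated by tiny pieces of the traces of
  their boundaries. -/
  iso : ∀ w ∈ F, r ⊂ w → ∀ E ⊆ P w ∩ H, #E < τ →
    ∃ b ⊆ nbd A P r w ∩ H, #b < τ ∧ M.Isol b (nbd A P r w) E

/-- The conclusion for a part of the new faces. -/
def KeyC2 (M : PG C) (τ : Cardinal.{u}) (A P : Finset ι → Set C) (F' : Finset (Finset ι))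
    (Q H : Set C) : Prop :=
  ∀ E ⊆ iun P F' ∩ H, #E < τ → ∀ D ⊆ Q ∩ H, #D < τ → ∃ g ∈ M.G, (∀ d ∈ D, g d = d) ∧
    ∀ v ∈ F', ∀ e ∈ E, e ∈ P v → g e ∈ A v ∩ H

/-- **Peeling of one block on a closed trace.** -/
theorem key2C (hM : M.Calc) (hτ : ℵ₀ ≤ τ) (hτM : τ ≤ M.χ) (h : Blk M A P F r Q)
    (hH : Cl2 M τ A P F r Q H) : KeyC2 M τ A P F Q H := by
  have hun : ∀ {X Y : Set C}, #X < τ → #Y < τ → #(X ∪ Y : Set C) < τ := fun hX hY =>
    (mk_union_le _ _).trans_lt (add_lt_of_lt hτ hX hY)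
  have hint : ∀ {X : Set C} (Y : Set C), #X < τ → #(X ∩ Y : Set C) < τ := fun Y hX =>
    (mk_le_mk_of_subset inter_subset_left).trans_lt hX
  have him : ∀ {X : Set C} (f : C → C), #X < τ → #(f '' X) < τ := fun f hX =>
    mk_image_le.trans_lt hX
  refine down_induction_from (p := fun F' => F' ⊆ F → KeyC2 M τ A P F' Q H)
    (down_lowf h.fam.down h.mem_r) ?_ ?_ F h.fam.down (lowf_sub h.mem_r) Finset.Subset.rfl
  · intro _ E hE hEc D hD hDc
    have hDA : D ∪ (E ∩ iun A F) ⊆ Q ∩ H := by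
      rintro x (hx | hx)
      · exact hD hx
      · exact ⟨h.sub hx.2, (hE hx.1).2⟩
    have hDAc : #(D ∪ (E ∩ iun A F) : Set C) < τ := hun hDc (hint _ hEc)
    obtain ⟨g, hg, h1, h2⟩ := hM.sym (h.fam.mem r h.mem_r) h.ind (D ∪ (E ∩ iun A F))
      (fun x hx => Or.inr (hDA hx).1) (hDAc.trans_le hτM) (E ∩ P r) inter_subset_right
      ((hint _ hEc).trans_le hτM)
    obtain ⟨k, hk, h3, h4⟩ := hH.ec (g '' (E ∩ P r)) (by
      rintro _ ⟨x, hx, rfl⟩
      exact h2 x hx) (him g (hint _ hEc)) (D ∪ (E ∩ iun A F)) hDA hDAc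
    have h5 : ∀ x ∈ D ∪ (E ∩ iun A F), (k * g) x = x := fun x hx => by
      rw [Equiv.Perm.mul_apply, h1 x hx, h3 x hx]
    refine ⟨k * g, M.G.mul_mem hk hg, fun d hd => h5 d (Or.inl hd), fun v hv e he hev => ?_⟩
    rcases Finset.mem_insert.1 hv with rfl | hv
    · exact h4 _ ⟨e, ⟨he, hev⟩, rfl⟩
    · obtain ⟨h6, h7⟩ := Finset.mem_filter.1 hv
      rw [h.same v h6 h7] at hev
      rw [h5 e (Or.inr ⟨he, v, h6, hev⟩)]
      exact ⟨hev, (hE he).2⟩
  · intro F' w₁ hF' h0 hw₁' hw ih hsub' E hE hEc D hD hDc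
    have hsub : F' ⊆ F := (Finset.subset_insert w₁ F').trans hsub'
    have hw₁ : w₁ ∈ F := hsub' (Finset.mem_insert_self w₁ F')
    have hC := ih hsub
    have hrw : r ⊂ w₁ := ssubset_of_notMem_lowf hw₁ fun h1 => hw₁' (h0 h1)
    obtain ⟨b, hb, hbc, hiso⟩ := hH.iso w₁ hw₁ hrw (E ∩ P w₁)
      (fun x hx => ⟨hx.2, (hE hx.1).2⟩) (hint _ hEc)
    have hiso' : M.Isol b (Q ∪ iun P F') (E ∩ P w₁) :=
      hiso.lift (tv_nbd h hF' hsub h0 (keyR_part hM h hsub) hw₁ hw₁' hw)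
        (hb.trans inter_subset_left) (hbc.trans_le hτM)
    obtain ⟨g, hg, h1, h2⟩ := hC ((E ∩ iun P F') ∪ (b ∩ iun P F'))
      (by
        rintro x (hx | hx)
        · exact ⟨hx.2, (hE hx.1).2⟩
        · exact ⟨hx.2, (hb hx.1).2⟩)
      (hun (hint _ hEc) (hint _ hbc)) (D ∪ (b ∩ A w₁))
      (union_subset hD fun x hx => ⟨h.sub_face hw₁ hx.2, (hb hx.1).2⟩)
      (hun hDc (hint _ hbc))
    have hgb : ∀ x ∈ b, g x ∈ A w₁ ∩ H := by
      intro x hx
      rcases (hb hx).1 with h4 | ⟨q, hq1, hq2, hxq⟩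
      · rw [h1 x (Or.inr ⟨hx, h4⟩)]
        exact ⟨h4, (hb hx).2⟩
      · have h5 := h2 q (hw q hq2) x (Or.inr ⟨hx, q, hw q hq2, hxq⟩) hxq
        exact ⟨h.fam.mono w₁ hw₁ q hq2.1 h5.1, h5.2⟩
    obtain ⟨k, hk, h4, h5⟩ := hH.sat w₁ hw₁ hrw (g '' b) (by
      rintro _ ⟨x, hx, rfl⟩
      exact hgb x hx) (him g hbc) (g '' (E ∩ P w₁)) (him g (hint _ hEc))
    obtain ⟨l, hl, h6, h7⟩ := hiso' (g⁻¹ * k * g) (M.G.mul_mem (M.G.mul_mem
        (M.G.inv_mem hg) hk) hg) (fun x hx => by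
          change g⁻¹ (k (g x)) = x
          rw [h4 _ (mem_image_of_mem g hx), inv_ap]) ((E ∩ iun P F') ∪ D)
      (union_subset (inter_subset_right.trans subset_union_right)
        ((hD.trans inter_subset_left).trans subset_union_left))
      ((hun (hint _ hEc) hDc).trans_le hτM)
    refine ⟨g * l, M.G.mul_mem hg hl, fun d hd => ?_, fun v hv e he hev => ?_⟩
    · rw [Equiv.Perm.mul_apply, h6 d (Or.inr hd), h1 d (Or.inl hd)]
    · rcases Finset.mem_insert.1 hv with rfl | hv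
      · rw [Equiv.Perm.mul_apply, h7 e ⟨he, hev⟩]
        change g (g⁻¹ (k (g e))) ∈ _
        rw [ap_inv]
        exact h5 _ (mem_image_of_mem g ⟨he, hev⟩)
      · have h8 : e ∈ E ∩ iun P F' := ⟨he, v, hv, hev⟩
        rw [Equiv.Perm.mul_apply, h6 e (Or.inl h8)]
        exact h2 v hv e (Or.inl h8) hev

/-- **Joint reflection by peeling**: a chain of blocks, and the joint reflection of the last
family. -/
theorem jr_peel (hM : M.Calc) (hτ : ℵ₀ ≤ τ) (hτM : τ ≤ M.χ) (m : ℕ)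
    (fam : ℕ → Finset ι → Set C) (rr : ℕ → Finset ι) (QQ : ℕ → Set C)
    (hblk : ∀ i < m, Blk M (fam i) (fam (i + 1)) F (rr i) (QQ i))
    (hN : ∀ i < m, N ⊆ QQ i)
    (hcl : ∀ i < m, Cl2 M τ (fam i) (fam (i + 1)) F (rr i) (QQ i) H)
    (htop : M.JR τ (fam m) F H (N ∩ H)) : M.JR τ (fam 0) F H (N ∩ H) := by
  have key : ∀ j ≤ m, M.JR τ (fam (m - j)) F H (N ∩ H) := by
    intro j
    induction j with
    | zero => exact fun _ => htop
    | succ j ih =>
      intro hj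
      have h1 := ih (by omega)
      obtain ⟨i, hi⟩ : ∃ i, m - j = i + 1 := ⟨m - j - 1, by omega⟩
      have hi' : m - (j + 1) = i := by omega
      have him : i < m := by omega
      rw [hi] at h1
      rw [hi']
      have hB := hblk i him
      intro E hE hEc q hq hqc
      -- into the trace of the larger family
      obtain ⟨g, hg, h2, h3⟩ := h1 E (by
        rintro x hx
        obtain ⟨v, hv, hxv⟩ := hE hx
        exact ⟨v, hv, hB.le hv hxv⟩) hEc q hq hqc
      obtain ⟨k, hk, h4, h5⟩ := key2C hM hτ hτM hB (hcl i him) (g '' E) (by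
        rintro _ ⟨x, hx, rfl⟩
        obtain ⟨v, hv, hxv⟩ := hE hx
        have h6 := h3 v hv x hx (hB.le hv hxv)
        exact ⟨⟨v, hv, h6.1⟩, h6.2⟩) (mk_image_le.trans_lt hEc) q
        (hq.trans (inter_subset_inter_left H (hN i him))) hqc
      refine ⟨k * g, M.G.mul_mem hk hg, fun x hx => ?_, fun v hv e he hev => ?_⟩
      · rw [Equiv.Perm.mul_apply, h2 x hx, h4 x hx]
      · rw [Equiv.Perm.mul_apply]
        exact h5 v hv _ ⟨e, he, rfl⟩ (h3 v hv e he (hB.le hv hev)).1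
  have h1 := key m le_rfl
  rwa [Nat.sub_self] at h1

end Vale.Agent.P307.R2.H844
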