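import Vale.Agent.P307.R2.H578.JR1
import Vale.Agent.P307.R2.H844.Peel2

/-!
Joint reflection of the closed traces of an arbitrary boundary from one scaffold for every small
size, by peeling of the blocks.
-/

universe u v

open Set Cardinal Function

namespace Vale.Agent.P307.R2.H844

open Vale.Agent.P307.R2.H541 Vale.Agent.P307.R2.H541.PG Vale.Agent.P307.R2.H533
open Vale.Agent.P307.R2.H68 (Clo exists_clo)
open Vale.Agent.P307.R2.H301 (TrN clo_left clo_right)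
open Vale.Agent.P307.R2.H578

open scoped Classical

variable {ι : Type v} {C : Type u} {M : PG C} {τ : Cardinal.{u}}
  {A P : Finset ι → Set C} {F : Finset (Finset ι)} {r : Finset ι} {Q H N : Set C}

/-- A common refinement of finitely many closures. -/
theorem exists_clo_fin' {J : Type*} (F : Finset J) (hτ : ℵ₀ ≤ τ) {P : J → Set C → Prop}
    (h : ∀ j ∈ F, ∃ φ : Finset C → Set C, (∀ s, #(φ s) ≤ τ) ∧ ∀ H, Clo φ H → #H ≤ τ → P j H) :
    ∃ φ : Finset C → Set C, (∀ s, #(φ s) ≤ τ) ∧ ∀ H, Clo φ H → #H ≤ τ → ∀ j ∈ F, P j H := by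
  induction F using Finset.induction_on with
  | empty => exact ⟨fun _ => ∅, fun _ => by simp, fun _ _ _ j hj => absurd hj (Finset.notMem_empty j)⟩
  | insert a F ha ih =>
    obtain ⟨φ, h1, h2⟩ := ih fun j hj => h j (Finset.mem_insert_of_mem hj)
    obtain ⟨ψ, h3, h4⟩ := h a (Finset.mem_insert_self a F)
    refine ⟨fun s => φ s ∪ ψ s, fun s => (mk_union_le _ _).trans ((add_le_add (h1 s) (h3 s)).trans
      (add_eq_self hτ).le), fun H hH hHc j hj => ?_⟩
    rcases Finset.mem_insert.1 hj with rfl | hj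
    · exact h4 H (clo_right hH) hHc
    · exact h2 H (clo_left hH) hHc j hj

/-- A common refinement of closures, one for every cardinal below `τ`. -/
theorem exists_clo_lt (hτ : ℵ₀ ≤ τ) {P : Cardinal.{u} → Set C → Prop}
    (h : ∀ d < τ, ∃ φ : Finset C → Set C, (∀ s, #(φ s) ≤ τ) ∧ ∀ H, Clo φ H → #H ≤ τ → P d H) :
    ∃ φ : Finset C → Set C, (∀ s, #(φ s) ≤ τ) ∧ ∀ H, Clo φ H → #H ≤ τ → ∀ d < τ, P d H := by
  have hlt : ∀ y : τ.ord.ToType, #(Iio y) < τ := fun y => by simpa using mk_Iio_lt y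
  choose Φ hΦ1 hΦ2 using fun y : τ.ord.ToType => h _ (hlt y)
  refine ⟨fun s => ⋃ y : τ.ord.ToType, Φ y s, fun s => ?_, fun H hH hHc d hd => ?_⟩
  · refine (mk_iUnion_le _).trans ?_
    refine (mul_le_mul' ?_ (ciSup_le' fun (y : τ.ord.ToType) => hΦ1 y s)).trans (mul_eq_self hτ).le
    rw [mk_toType, card_ord]
  · have h1 : d.ord < Ordinal.type (α := τ.ord.ToType) (· < ·) := by
      rw [Ordinal.type_toType]
      exact ord_lt_ord.2 hd
    obtain ⟨y, hy⟩ := Ordinal.typein_surj (α := τ.ord.ToType) (· < ·) h1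
    have h2 := Ordinal.card_typein (α := τ.ord.ToType) (r := (· < ·)) y
    rw [hy, card_ord] at h2
    have h3 : #(Iio y) = d := h2.symm
    have h4 := hΦ2 y H (hH.mono fun s => subset_iUnion (fun y => Φ y s) y) hHc
    rwa [h3] at h4

/-- Peeling of a chain of blocks on a closed trace. -/
theorem peel_all (hM : M.Calc) (hτ : ℵ₀ ≤ τ) (hτM : τ ≤ M.χ) (m : ℕ)
    (fam : ℕ → Finset ι → Set C) (rr : ℕ → Finset ι) (QQ : ℕ → Set C)
    (hblk : ∀ i < m, Blk M (fam i) (fam (i + 1)) F (rr i) (QQ i))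
    (hN : ∀ i < m, N ⊆ QQ i)
    (hcl : ∀ i < m, Cl2 M τ (fam i) (fam (i + 1)) F (rr i) (QQ i) H) :
    ∀ j ≤ m, ∀ E ⊆ iun (fam j) F ∩ H, #E < τ → ∀ q ⊆ N ∩ H, #q < τ →
      ∃ g ∈ M.G, (∀ x ∈ q, g x = x) ∧ ∀ v ∈ F, ∀ e ∈ E, e ∈ fam j v → g e ∈ fam 0 v ∩ H := by
  intro j
  induction j with
  | zero =>
    intro _ E hE _ q _ _
    exact ⟨1, M.G.one_mem, fun _ _ => rfl, fun v _ e he hev => ⟨hev, (hE he).2⟩⟩
  | succ j ih =>
    intro hj E hE hEc q hq hqc
    have hjm : j < m := hj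
    obtain ⟨k, hk, h4, h5⟩ := key2C hM hτ hτM (hblk j hjm) (hcl j hjm) E hE hEc q
      (hq.trans (inter_subset_inter_left H (hN j hjm))) hqc
    obtain ⟨g, hg, h6, h7⟩ := ih hjm.le (k '' E) (by
      rintro _ ⟨x, hx, rfl⟩
      obtain ⟨v, hv, hxv⟩ := (hE hx).1
      have h8 := h5 v hv x hx hxv
      exact ⟨⟨v, hv, h8.1⟩, h8.2⟩) (mk_image_le.trans_lt hEc) q hq hqc
    refine ⟨g * k, M.G.mul_mem hg hk, fun x hx => ?_, fun v hv e he hev => ?_⟩
    · rw [Equiv.Perm.mul_apply, h4 x hx, h6 x hx]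
    · exact h7 v hv _ ⟨e, he, rfl⟩ (h5 v hv e he hev).1

/-- Shrinking of the isolating sets of the tiny pieces of the atomic tops over all the boundaries
of dimension `k`. -/
def SHa {C : Type u} (M : PG C) (τ : Cardinal.{u}) (ι : Type v) (k : ℕ) : Prop :=
  ∀ (A : Finset ι → Set C) (s : Finset ι), s.card = k → IFam M A s.ssubsets →
    IRef M A s.ssubsets → ∀ N, M.Atomic N (ibd A s) → ∃ ψ, TrN M τ (ibd A s) N ψ

theorem _root_.Vale.Agent.P307.R2.H578.SHk.sha {k : ℕ} (h : SHk M τ ι k) : SHa M τ ι k :=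
  fun A s hs hA hR N hN => h A s hs hA hR N hN.mem hN.sub

/-- The closures for one block. -/
theorem exists_cl2 {S' : Set (Set C)} {n : ℕ} (hM : M.Calc) (hT : TwoLv M τ S')
    (hSH : ∀ j < n, SHa M τ ι j) (h : Blk M A P F r Q) (hr0 : r.Nonempty)
    (hF : ∀ w ∈ F, w.card < n) :
    ∃ φ : Finset C → Set C, (∀ s, #(φ s) ≤ τ) ∧ ∀ H, Clo φ H → #H ≤ τ →
      Cl2 M τ A P F r Q H := by
  have hτ := hT.ap
  have hτM := hT.lt.le
  obtain ⟨c, hc⟩ := hr0
  obtain ⟨φ₁, h1, h2⟩ := exists_clo_fin' (J := Finset ι) F hτ (P := fun v H =>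
    ∀ E ⊆ A v, #E < τ → ∀ q ⊆ H, #q < τ →
      ∃ g ∈ M.G, (∀ x ∈ q, g x = x) ∧ ∀ e ∈ E, g e ∈ A v ∩ H) fun v hv => by
    obtain ⟨φ, h1, h2⟩ := hT.ec (A v) (h.fam.mem v hv)
    exact ⟨φ, h1, fun H hH hHc => (h2 H hH hHc).2⟩
  obtain ⟨φ₂, h3, h4⟩ := exists_clo_fin' (J := Finset ι) F hτ (P := fun w H => r ⊂ w →
    ∀ E ⊆ P w ∩ H, #E < τ → ∃ b ⊆ nbd A P r w ∩ H, #b < τ ∧
      M.Isol b (nbd A P r w) E) fun w hw => by
    by_cases hrw : r ⊂ w
    · have hE : Ext1 M (lnk A P r c) (w \ r) c :=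
        ext1_lnk hc hrw.1 (h.fam.isys h.ref hw) h.memB h.subB
          (h.ind.mono Subset.rfl (h.sub_face hw)) fun q hq1 hq2 =>
            h.atomic q (h.fam.down.2 w hw q hq2.1) hq1
      have hcw : c ∉ w \ r := fun h5 => (Finset.mem_sdiff.1 h5).2 hc
      have hcard : (insert c (w \ r)).card < n := by
        rw [Finset.card_insert_of_notMem hcw, Finset.card_sdiff_of_subset hrw.1]
        have h5 := hF w hw
        have h6 : 0 < r.card := Finset.card_pos.2 ⟨c, hc⟩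
        have h7 := Finset.card_le_card hrw.1
        omega
      have hnb : ibd (lnk A P r c) (insert c (w \ r)) = nbd A P r w := by
        have hun : r ∪ (w \ r) = w := Finset.union_sdiff_of_subset hrw.1
        have h5 := ibd_lnk (A := A) (P := P) hc (u := w \ r) Finset.sdiff_disjoint
          (fun q hq => (h.fam.isys h.ref hw).mono (by rw [hun])
            (Finset.union_subset_union_right hq))
        rwa [hun] at h5
      have hat := h.atomic w hw hrw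
      obtain ⟨ψ, hψ⟩ := hSH _ hcard (lnk A P r c) (insert c (w \ r)) rfl hE.fam (hE.ref hM)
        (P w) (by rw [hnb]; exact hat)
      rw [hnb] at hψ
      refine ⟨ψ, hψ.card, fun H hH hHc _ E hEH hEc => ?_⟩
      exact hψ.shrink H hH hHc E hEH hEc (hat.iso E (hEH.trans inter_subset_left)
        (hEc.trans_le hτM))
    · exact ⟨fun _ => ∅, fun _ => by simp, fun _ _ _ h5 => absurd h5 hrw⟩
  refine ⟨fun s => φ₁ s ∪ φ₂ s, fun s => (mk_union_le _ _).trans ((add_le_add (h1 s)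
    (h3 s)).trans (add_eq_self hτ).le), fun H hH hHc => ⟨?_, ?_, fun w hw hrw =>
      h4 H (clo_right hH) hHc w hw hrw⟩⟩
  · intro E hE hEc q hq hqc
    exact h2 H (clo_left hH) hHc r h.mem_r E hE hEc q (hq.trans inter_subset_right) hqc
  · intro w hw _ q hq hqc E hEc
    obtain ⟨g, hg, h5, h6⟩ := M.sat (h.fam.mem w hw) (hq.trans inter_subset_left)
      (hqc.trans_le hτM) (hEc.trans_le hτM)
    obtain ⟨k, hk, h7, h8⟩ := h2 H (clo_left hH) hHc w hw (g '' E) (by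
      rintro _ ⟨e, he, rfl⟩
      exact h6 e he) (mk_image_le.trans_lt hEc) q (hq.trans inter_subset_right) hqc
    refine ⟨k * g, M.G.mul_mem hk hg, fun x hx => ?_, fun e he => ?_⟩
    · rw [Equiv.Perm.mul_apply, h5 x hx, h7 x hx]
    · exact h8 _ ⟨e, he, rfl⟩

/-- **Joint reflection** from scaffolds and from the shrinking for the atomic tops of smaller
dimension. -/
theorem jr_of_scaf {S' : Set (Set C)} {n : ℕ} (hM : M.Calc) (hT : TwoLv M τ S')
    (hSH : ∀ j < n, SHa M τ ι j) {s : Finset ι} (hsn : s.card = n)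
    (hsc : ∀ d < τ, ∃ m P r Q, Scaf M A s.ssubsets N m P r Q ∧ ShiftD M τ d (P m) s.ssubsets) :
    JRp M τ A s.ssubsets N := by
  have hτ := hT.ap
  have hτM := hT.lt.le
  obtain ⟨φ, h1, h2⟩ := exists_clo_lt hτ (P := fun d H => ∀ E ⊆ iun A s.ssubsets, #E ≤ d →
    ∀ q ⊆ N ∩ H, #q ≤ d → ∃ g ∈ M.G, (∀ x ∈ q, g x = x) ∧
      ∀ v ∈ s.ssubsets, ∀ e ∈ E, e ∈ A v → g e ∈ A v ∩ H) fun d hd => by
    obtain ⟨m, P, r, Q, hS, φ₁, h1, h2⟩ := hsc d hd
    obtain ⟨φ₂, h3, h4⟩ := exists_clo_fin' (J := ℕ) (Finset.range m) hτ (P := fun i H =>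
      Cl2 M τ (P i) (P (i + 1)) s.ssubsets (r i) (Q i) H) fun i hi =>
        exists_cl2 hM hT hSH (hS.blk i (Finset.mem_range.1 hi)) (hS.ne i (Finset.mem_range.1 hi))
          fun w hw => by
            rw [← hsn]
            exact Finset.card_lt_card (Finset.mem_ssubsets.1 hw)
    refine ⟨fun s => φ₁ s ∪ φ₂ s, fun s => (mk_union_le _ _).trans ((add_le_add (h1 s)
      (h3 s)).trans (add_eq_self hτ).le), fun H hH hHc E hE hEc q hq hqc => ?_⟩
    have hle : ∀ j ≤ m, ∀ v ∈ s.ssubsets, P 0 v ⊆ P j v := by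
      intro j
      induction j with
      | zero => exact fun _ _ _ => Subset.rfl
      | succ j ih => exact fun hj v hv => (ih (Nat.le_of_lt hj) v hv).trans ((hS.blk j hj).le hv)
    have hEm : ∀ v ∈ s.ssubsets, ∀ e ∈ E, e ∈ A v → e ∈ P m v := fun v hv e _ hev => by
      rw [← hS.zero v hv] at hev
      exact hle m le_rfl v hv hev
    obtain ⟨g, hg, h5, h6⟩ := h2 H (clo_left hH) hHc E (by
      intro x hx
      obtain ⟨v, hv, hxv⟩ := hE hx
      exact ⟨v, hv, hEm v hv x hx hxv⟩) hEc q (hq.trans inter_subset_right) hqc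
    obtain ⟨k, hk, h7, h8⟩ := peel_all (N := N) (H := H) hM hτ hτM m P r Q hS.blk hS.sub
      (fun i hi => h4 H (clo_right hH) hHc i (Finset.mem_range.2 hi)) m le_rfl (g '' E) (by
        rintro _ ⟨x, hx, rfl⟩
        obtain ⟨v, hv, hxv⟩ := hE hx
        have h9 := h6 v hv x hx (hEm v hv x hx hxv)
        exact ⟨⟨v, hv, h9.1⟩, h9.2⟩) (mk_image_le.trans_lt (hEc.trans_lt hd)) q hq
      (hqc.trans_lt hd)
    refine ⟨k * g, M.G.mul_mem hk hg, fun x hx => ?_, fun v hv e he hev => ?_⟩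
    · rw [Equiv.Perm.mul_apply, h5 x hx, h7 x hx]
    · rw [Equiv.Perm.mul_apply]
      have h9 := h8 v hv _ ⟨e, he, rfl⟩ (h6 v hv e he (hEm v hv e he hev)).1
      rwa [hS.zero v hv] at h9
  refine ⟨φ, h1, fun H hH hHc E hE hEc q hq hqc => ?_⟩
  exact h2 H hH hHc (max #E #q) (max_lt hEc hqc) E hE (le_max_left _ _) q hq (le_max_right _ _)

/-- The statement of helper578. -/
theorem jrStep {S' : Set (Set C)} {n : ℕ} : JrStep M τ S' ι n :=
  fun hM _ hT _ hSH _ _ hsn _ _ _ _ hsc => jr_of_scaf hM hT (fun j hj => (hSH j hj).sha) hsn hsc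

end Vale.Agent.P307.R2.H844
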