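import Vale.Agent.P307.R2.H844.TrTiny
import Vale.Agent.P307.R2.H27.TrPt
import Vale.Agent.P307.R2.H806.TwoPG

/-!
Trace isolation without saturation of the closed set, at the base points.
-/

set_option linter.unusedSectionVars false

universe u v

open FirstOrder Cardinal Set Function

namespace Vale.Agent.P307.R2.H844

open Vale.Agent.P307 Vale.Agent.P307.H304 Vale.Agent.P307.R2.H287 Vale.Agent.P307.R2.H1
  Vale.Agent.P307.R2.H971 Vale.Agent.P307.R2.H804 Vale.Agent.P307.R2.H541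
  Vale.Agent.P307.R2.H541.PG Language.Structure Language.Substructure

variable {C : Type u}

/-- Trace isolation, from the failure of the order property. -/
theorem trIsoAt_of_noOrd (M : PG C) {τ : Cardinal.{u}} (hτ : ℵ₀ ≤ τ) (hτM : τ ≤ M.χ)
    (hno : H296.NoOrd M.G τ) : H27.TrIsoAt M τ :=
  fun _ _ _ _ hec _ hBc hI hk => tr_isol' M hτ hτM hno inter_subset_left hk hec hBc hI

variable {L : Language.{u, u}} {K : AEC L} {ℓ θ τ : Cardinal.{u}}
  {κf α : Cardinal.{u} → Cardinal.{u}} [L.Structure C]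

/-- Trace isolation at the base points. -/
theorem pg_trIsoAt (h₀ : BasePt K ℓ κf α θ) (hK : K.IsLS ℓ)
    (hunb : ∀ ν, ν < κf ν ∧ K.CategoricalIn (κf ν)) (hst : Stab K ℓ α (H287.thr κf))
    (hCm : K.mem C) (hs : Sat K θ C) (hCc : #C = Order.succ θ)
    (hτ : BasePt K ℓ κf α τ) (hτθ : τ ≤ θ) :
    H27.TrIsoAt (pg h₀ hK hunb hst hCm hs hCc) τ :=
  trIsoAt_of_noOrd _ (aleph0_le_pt hτ hK) hτθ
    (H296.noOrd h₀ hK hunb hst hCm hs hCc hτ hτθ)

end Vale.Agent.P307.R2.H844
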