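import Vale.Agent.P307.R2.H718.Master
import Vale.Agent.P307.R2.H287.PgLv
import Vale.Agent.P307.R2.H427.MapPG
import Vale.Agent.P307.R2.H806.LimPG
import Vale.Agent.P307.R2.H913.ChnPg

/-!
The step of the induction on the dimension, from the open statements on one level and on two levels:
tameness of the boundaries, joint reflection of the traces, shrinking of isolating sets, limits of
coherent maps on independent pairs, and chains.
-/

set_option linter.unusedSectionVars false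

universe u

open FirstOrder Cardinal Set

namespace Vale.Agent.P307.R2.H844

open Vale.Agent.P307 Vale.Agent.P307.H304 Vale.Agent.P307.R2.H287 Vale.Agent.P307.R2.H1
  Vale.Agent.P307.R2.H68 Vale.Agent.P307.R2.H971 Vale.Agent.P307.R2.H804
  Vale.Agent.P307.R2.H541 Vale.Agent.P307.R2.H541.PG Vale.Agent.P307.R2.H533
  Vale.Agent.P307.R2.H806 Vale.Agent.P307.R2.H718
  Language.Structure Language.Substructure
open Vale.Agent.P307.R2.H301 (Lv TrX TrN exists_top clo_left clo_right)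

open scoped Classical

/-! ### The open statements -/

section props

variable {L : Language.{u, u}} (K : AEC L) (ℓ : Cardinal.{u})
  (κf α : Cardinal.{u} → Cardinal.{u})

/-- (T) The boundaries of the extensions of the `k`-dimensional systems are tame, at the base point
`θ`. -/
def TX (k : ℕ) (θ : Cardinal.{u}) : Prop :=
  ∀ (h₀ : BasePt K ℓ κf α θ) (hK : K.IsLS ℓ) (hunb : ∀ ν, ν < κf ν ∧ K.CategoricalIn (κf ν))
    (hst : Stab K ℓ α (H287.thr κf)) (C : Type u) [L.Structure C] (hCm : K.mem C)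
    (hs : Sat K θ C) (hCc : #C = Order.succ θ) (ι : Type u) (A : Finset ι → Set C) (S : Finset ι)
    (c : ι), S.card = k → Ext1 (pg h₀ hK hunb hst hCm hs hCc) A S c →
      (pg h₀ hK hunb hst hCm hs hCc).Tm (ibd A (insert c S))

/-- (CH) Chains at the base point `θ`. -/
def CH (θ : Cardinal.{u}) : Prop :=
  ∀ (h₀ : BasePt K ℓ κf α θ) (hK : K.IsLS ℓ) (hunb : ∀ ν, ν < κf ν ∧ K.CategoricalIn (κf ν))
    (hst : Stab K ℓ α (H287.thr κf)) (C : Type u) [L.Structure C] (hCm : K.mem C)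
    (hs : Sat K θ C) (hCc : #C = Order.succ θ), H650.Chn (pg h₀ hK hunb hst hCm hs hCc)

/-- (JR) Joint reflection of the traces, at the base points `τ < θ`. -/
def JRX (k : ℕ) (τ θ : Cardinal.{u}) : Prop :=
  ∀ (h₀ : BasePt K ℓ κf α θ) (hK : K.IsLS ℓ) (hunb : ∀ ν, ν < κf ν ∧ K.CategoricalIn (κf ν))
    (hst : Stab K ℓ α (H287.thr κf)) (C : Type u) [L.Structure C] (hCm : K.mem C)
    (hs : Sat K θ C) (hCc : #C = Order.succ θ) (ι : Type u) (A : Finset ι → Set C) (S : Finset ι)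
    (c : ι), S.card = k → Ext1 (pg h₀ hK hunb hst hCm hs hCc) A S c →
      ∃ φ : Finset C → Set C, (∀ s, #(φ s) ≤ τ) ∧ ∀ H, Clo φ H → #H ≤ τ →
        (pg h₀ hK hunb hst hCm hs hCc).JR τ A (insert c S).ssubsets H (ibd A (insert c S) ∩ H)

/-- (SH) Shrinking of isolating sets, at the base points `τ < θ`. -/
def SHX (k : ℕ) (τ θ : Cardinal.{u}) : Prop :=
  ∀ (h₀ : BasePt K ℓ κf α θ) (hK : K.IsLS ℓ) (hunb : ∀ ν, ν < κf ν ∧ K.CategoricalIn (κf ν))
    (hst : Stab K ℓ α (H287.thr κf)) (C : Type u) [L.Structure C] (hCm : K.mem C)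
    (hs : Sat K θ C) (hCc : #C = Order.succ θ) (ι : Type u) (A : Finset ι → Set C) (S : Finset ι)
    (c : ι), S.card = k → Ext1 (pg h₀ hK hunb hst hCm hs hCc) A S c →
      ∀ N ∈ (pg h₀ hK hunb hst hCm hs hCc).S, ibd A (insert c S) ⊆ N →
        ∃ ψ, TrN (pg h₀ hK hunb hst hCm hs hCc) τ (ibd A (insert c S)) N ψ

/-- (LL) Limits of coherent maps on the pair, at the base points `τ < θ`. -/
def LLX (k : ℕ) (τ θ : Cardinal.{u}) : Prop :=
  ∀ (h₀ : BasePt K ℓ κf α θ) (hK : K.IsLS ℓ) (hunb : ∀ ν, ν < κf ν ∧ K.CategoricalIn (κf ν))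
    (hst : Stab K ℓ α (H287.thr κf)) (C : Type u) [L.Structure C] (hCm : K.mem C)
    (hs : Sat K θ C) (hCc : #C = Order.succ θ) (ι : Type u) (A : Finset ι → Set C) (S : Finset ι)
    (c : ι), S.card = k → Ext1 (pg h₀ hK hunb hst hCm hs hCc) A S c →
      ∃ φ : Finset C → Set C, (∀ s, #(φ s) ≤ τ) ∧
        ∀ (I : Type u) [LinearOrder I] [WellFoundedLT I] [Nonempty I], #I ≤ τ →
        ∀ z : I → Set C, Monotone z → (∀ i, Clo φ (z i)) → (∀ i, #(z i) ≤ τ) → ∀ f : C → C,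
          (∀ i, (pg h₀ hK hunb hst hCm hs hCc).LET τ f (ibd A (insert c S) ∩ z i)) →
            (pg h₀ hK hunb hst hCm hs hCc).LET τ f ((A {c} ∪ A S) ∩ ⋃ i, z i)

end props

variable {L : Language.{u, u}} {K : AEC L} {ℓ θ τ : Cardinal.{u}}
  {κf α : Cardinal.{u} → Cardinal.{u}} {C : Type u} [L.Structure C]

/-- A common refinement of finitely many closures. -/
theorem exists_clo_fin {J : Type*} (F : Finset J) {τ : Cardinal.{u}} (hτ : ℵ₀ ≤ τ)
    {P : J → Set C → Prop}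
    (h : ∀ j ∈ F, ∃ φ : Finset C → Set C, (∀ s, #(φ s) ≤ τ) ∧ ∀ H, Clo φ H → #H ≤ τ → P j H) :
    ∃ φ : Finset C → Set C, (∀ s, #(φ s) ≤ τ) ∧ ∀ H, Clo φ H → #H ≤ τ → ∀ j ∈ F, P j H := by
  induction F using Finset.induction_on with
  | empty => exact ⟨fun _ => ∅, fun _ => by simp, fun _ _ _ j hj => absurd hj (Finset.notMem_empty j)⟩
  | insert a F ha ih =>
    obtain ⟨φ, h1, h2⟩ := ih fun j hj => h j (Finset.mem_insert_of_mem hj)
    obtain ⟨ψ, h3, h4⟩ := h a (Finset.mem_insert_self a F)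
    refine ⟨fun s => φ s ∪ ψ s, fun s => (mk_union_le _ _).trans ((add_le_add (h1 s) (h3 s)).trans
      (add_eq_self hτ).le), fun H hH hHc j hj => ?_⟩
    rcases Finset.mem_insert.1 hj with rfl | hj
    · exact h4 H (clo_right hH) hHc
    · exact h2 H (clo_left hH) hHc j hj

section

variable (h₀ : BasePt K ℓ κf α θ) (hK : K.IsLS ℓ)
  (hunb : ∀ ν, ν < κf ν ∧ K.CategoricalIn (κf ν)) (hst : Stab K ℓ α (H287.thr κf))
  (hCm : K.mem C) (hs : Sat K θ C) (hCc : #C = Order.succ θ)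

variable {ι : Type u} {A : Finset ι → Set C} {S : Finset ι} {c : ι}

/-- The size of the boundary. -/
theorem card_ibd {M : PG C} (hE : Ext1 M A S c) : #(ibd A (insert c S)) = M.χ := by
  have hSc : S ⊂ insert c S := Finset.ssubset_insert hE.notMem
  refine le_antisymm ?_ ?_
  · rw [← iun_ssubsets]
    have h1 : iun A (insert c S).ssubsets = ⋃ v : (insert c S).ssubsets, A v.1 := by
      ext x
      simp only [iun, mem_ofPred_eq, mem_iUnion, Subtype.exists, exists_prop]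
    rw [h1]
    refine (mk_iUnion_le_sum_mk).trans ?_
    have h2 : ∀ v : (insert c S).ssubsets, #(A v.1) = M.χ := fun v =>
      M.S_card (hE.fam.mem v.1 v.2)
    simp only [h2, sum_const, lift_id]
    refine (mul_le_mul' ?_ le_rfl).trans (mul_eq_self M.hχ).le
    exact (lt_aleph0_of_finite _).le.trans M.hχ
  · rw [← M.S_card (hE.sys.mem (Finset.Subset.refl S))]
    exact mk_le_mk_of_subset hE.bd_sub

include h₀ hCm hs hCc in
/-- Maps which preserve the types of the tiny pieces of a tame set are elementary. -/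
theorem emp_of_tmA (hτ : BasePt K ℓ κf α τ) (hτθ : τ < θ) {X : Set C} (hX : #X ≤ τ)
    (hT : TmA hK hunb hst hτ X) {f : C → C}
    (hf : ∀ A ⊆ X, #A < τ → ∃ g ∈ (pg h₀ hK hunb hst hCm hs hCc).G, ∀ a ∈ A, g a = f a) :
    EMp L τ X f := by
  obtain ⟨C', hC', hC'c, hC's, hXC', -, g, hg, hgf⟩ := exists_low_aut h₀ hK hunb hst hCm hs hCc
    hτ hτθ (Y := ∅) hX (by simp) hf hT
  have h5 := low_emp h₀ hK hunb hst hCm hs hCc hτ hτθ hC' hC'c hC's hg
    (z := PG.tr (C' : Set C) X) ((PG.mk_tr_le (D := (C' : Set C)) X).trans hX) (f := f)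
    (fun x hx => (hgf x hx).symm)
  have h6 : Subtype.val '' PG.tr (C' : Set C) X = X := PG.image_tr hXC'
  have h7 : EMp L τ (Subtype.val '' PG.tr (C' : Set C) X) f := h5
  rwa [h6] at h7

/-- The traces of the boundary at the level `τ`. -/
theorem exists_trX {k : ℕ} (hτ : BasePt K ℓ κf α τ) (hτθ : τ < θ)
    (hE : Ext1 (pg h₀ hK hunb hst hCm hs hCc) A S c) (hSk : S.card = k) (hk : k ≠ 0)
    (hT : TX K ℓ κf α k τ) (hCh : CH K ℓ κf α τ) (hJ : JRX K ℓ κf α k τ θ)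
    (hSH : ∀ j, j < k → j ≠ 0 → SHX K ℓ κf α j τ θ) (hLL : LLX K ℓ κf α k τ θ) :
    ∃ φ, TrX (pgLv h₀ hK hunb hst hCm hs hCc hτ hτθ) (ibd A (insert c S)) φ := by
  have hτ0 := aleph0_le_pt hτ hK
  have hne : S.Nonempty := by
    rw [← Finset.card_pos, hSk]
    exact Nat.pos_of_ne_zero hk
  -- the closures
  obtain ⟨φ₁, h11, h12⟩ := hJ h₀ hK hunb hst C hCm hs hCc ι A S c hSk hE
  obtain ⟨φ₂, h21, h22⟩ := hLL h₀ hK hunb hst C hCm hs hCc ι A S c hSk hE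
  obtain ⟨φ₃, h31, h32⟩ := exists_clo_fin (insert c S).ssubsets hτ0
    (P := fun t H => A t ∩ H ∈ Sm K τ C) fun t ht => by
      obtain ⟨φ, h1, h2⟩ := exists_clo_pack h₀ hK hunb hst hCm hs hCc hτ hτθ
        (hE.fam.mem t ht) (R := fun _ => A t) fun _ => by
          obtain ⟨D, h1, -, h2⟩ := hE.fam.mem t ht
          exact ⟨D, h1, h2⟩
      exact ⟨φ, h1, fun H hH hHc => (h2 H ⟨hH, hHc⟩).1⟩
  obtain ⟨φ₄, h41, h42⟩ := exists_clo_fin S.ssubsets hτ0
    (P := fun u H => u.Nonempty → ∀ E ⊆ A (insert c u) ∩ H, #E < τ →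
      ∃ B ⊆ ibd A (insert c u), #B < τ ∧
        (pg h₀ hK hunb hst hCm hs hCc).Isol B (ibd A (insert c u)) E) fun u hu => by
      have hu' := Finset.mem_ssubsets.1 hu
      rcases u.eq_empty_or_nonempty with rfl | hu0
      · exact ⟨fun _ => ∅, fun _ => by simp, fun _ _ _ h => absurd h Finset.not_nonempty_empty⟩
      have hat := hE.atomic u hu' hu0
      obtain ⟨ψ, hψ⟩ := hSH u.card (by
        rw [← hSk]
        exact Finset.card_lt_card hu') (Finset.card_pos.2 hu0).ne' h₀ hK hunb hst C hCm hs hCc ι A u c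
          rfl (hE.sub hu'.1) (A (insert c u)) hat.mem hat.sub
      refine ⟨ψ, hψ.card, fun H hH hHc _ E hEH hEc => ?_⟩
      obtain ⟨B, h1, h2, h3⟩ := hψ.shrink H hH hHc E hEH hEc (hat.iso E (hEH.trans inter_subset_left)
        (hEc.trans hτθ))
      exact ⟨B, h1.trans inter_subset_left, h2, h3⟩
  let φ : Finset C → Set C := fun s => (φ₁ s ∪ φ₂ s) ∪ (φ₃ s ∪ φ₄ s)
  have hφ : ∀ s, #(φ s) ≤ τ := by
    have hun : ∀ {X Y : Set C}, #X ≤ τ → #Y ≤ τ → #(X ∪ Y : Set C) ≤ τ := fun hX hY =>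
      (mk_union_le _ _).trans ((add_le_add hX hY).trans (add_eq_self hτ0).le)
    exact fun s => hun (hun (h11 s) (h21 s)) (hun (h31 s) (h41 s))
  have hφ1 : ∀ {H}, Clo φ H → Clo φ₁ H := fun h => clo_left (clo_left h)
  have hφ2 : ∀ {H}, Clo φ H → Clo φ₂ H := fun h => clo_right (clo_left h)
  have hφ3 : ∀ {H}, Clo φ H → Clo φ₃ H := fun h => clo_left (clo_right h)
  have hφ4 : ∀ {H}, Clo φ H → Clo φ₄ H := fun h => clo_right (clo_right h)
  let Z : Set (Set C) := {H | Clo φ H ∧ #H ≤ τ}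
  have hG : Good1 (pg h₀ hK hunb hst hCm hs hCc) τ A S c Z :=
    ⟨hE, hne, fun z hz => h12 z (hφ1 hz.1) hz.2, fun z hz u hu hu0 E hEz hEc =>
      h42 z (hφ4 hz.1) hz.2 u (Finset.mem_ssubsets.2 hu) hu0 E hEz hEc⟩
  have hZS : StrZ K τ A S c Z := fun w hw t ht => h32 w (hφ3 hw.1) hw.2 t (Finset.mem_ssubsets.2 ht)
  have hTmA : ∀ H ∈ Z, TmA hK hunb hst hτ (ibd A (insert c S) ∩ H) := by
    intro H hH C' hC' hC'c hC's hXC'
    have hL := pg_low h₀ hK hunb hst hCm hs hCc hτ hτθ hC' hC'c hC's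
    have hD : ∀ t, t ⊂ insert c S → A t ∩ H ⊆ C' := fun t ht x hx =>
      hXC' ⟨⟨t, ht, hx.1⟩, hx.2⟩
    have h1 := hL.ext1_tr' (pg_noOrd h₀ hK hunb hst hCm hs hCc hτ hτθ) hE hne (H := H)
      (fun t ht => tr_mem hK hunb hst hτ hC' hC'c hC's (hZS H hH t ht) (hD t ht)) hD
      (hG.jr H hH) (hG.tiny H hH)
    have h2 := hT hτ hK hunb hst C' (K.mem_of_le _ hC').1 hC's hC'c ι _ S c hSk h1
    rw [ibd_tr] at h2
    exact h2
  refine ⟨φ, hφ, fun H hH hHc f hf => emp_of_tmA h₀ hK hunb hst hCm hs hCc hτ hτθ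
    ((mk_le_mk_of_subset inter_subset_right).trans hHc) (hTmA H ⟨hH, hHc⟩) hf, ?_⟩
  intro I _ _ _ hI z hz hzφ hzc f hf
  have hZ : (⋃ i, z i) ∈ Z := ⟨Clo.iUnion hz.directed_le hzφ, (mk_iUnion_le _).trans ((mul_le_mul' hI
    (ciSup_le' hzc)).trans (mul_eq_self hτ0).le)⟩
  exact pg_lim_pair h₀ hK hunb hst hCm hs hCc hτ hτθ hG (fun z hz => hz.2) hZS
    (fun C' hC' hC'c hC's => hCh hτ hK hunb hst C' (K.mem_of_le _ hC').1 hC's hC'c) hz
    (fun i => ⟨hzφ i, hzc i⟩) hZ hf (h22 I hI z hz (fun i => hφ2 (hzφ i)) hzc f hf)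

/-- Atomic tops over the boundaries. -/
theorem md_of {k : ℕ} (hk : k ≠ 0) (hT : TX K ℓ κf α k θ)
    (h : ∀ σ < θ, ∃ τ, σ < τ ∧ τ < θ ∧ BasePt K ℓ κf α τ ∧ TX K ℓ κf α k τ ∧ CH K ℓ κf α τ ∧
      JRX K ℓ κf α k τ θ ∧ (∀ j, j ≤ k → j ≠ 0 → SHX K ℓ κf α j τ θ) ∧ LLX K ℓ κf α k τ θ) :
    Md (pg h₀ hK hunb hst hCm hs hCc) ι k := by
  intro A S c hSk hE
  refine pg_exists_top h₀ hK hunb hst hCm hs hCc (card_ibd hE)
    (hT h₀ hK hunb hst C hCm hs hCc ι A S c hSk hE) fun σ hσ => ?_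
  obtain ⟨τ, h1, h2, hτ, h4, h5, h6, h7, h8⟩ := h σ hσ
  exact ⟨τ, h1, hτ, h2, exists_trX h₀ hK hunb hst hCm hs hCc hτ h2 hE hSk hk h4 h5 h6
    (fun j hj => h7 j hj.le) h8, fun N hN hXN =>
      h7 k le_rfl hk h₀ hK hunb hst C hCm hs hCc ι A S c hSk hE N hN hXN⟩

end

section

variable {L : Language.{u, u}} {K : AEC L} {ℓ : Cardinal.{u}}
  {κf α : Cardinal.{u} → Cardinal.{u}}

variable (K ℓ κf α) in
/-- The open statements, from the atomic tops of smaller dimension. -/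
structure Open : Prop where
  /-- (T): tameness of the boundaries. -/
  tx : ∀ k : ℕ, ∃ s : ℕ, ∀ (m : ℕ) (θ : Cardinal.{u}), Rk K ℓ κf α (m + s) θ →
    (∀ τ ≤ θ, Rk K ℓ κf α m τ → Tops K ℓ κf α k τ) → TX K ℓ κf α (k + 1) θ
  /-- (CH): local character for chains. -/
  ch : ∀ θ : Cardinal.{u}, BasePt K ℓ κf α θ → CH K ℓ κf α θ
  /-- (JR), (SH), (LL): the two levels. -/
  two : ∀ k : ℕ, ∃ s : ℕ, ∀ (m : ℕ) (θ : Cardinal.{u}), Rk K ℓ κf α (m + s + 1) θ →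
    (∀ τ ≤ θ, Rk K ℓ κf α m τ → Tops K ℓ κf α k τ) → ∀ τ < θ, Rk K ℓ κf α (m + s) τ →
      JRX K ℓ κf α (k + 1) τ θ ∧ (∀ j, j ≤ k + 1 → j ≠ 0 → SHX K ℓ κf α j τ θ) ∧
        LLX K ℓ κf α (k + 1) τ θ

/-- **The step** from the open statements. -/
theorem step_of_open (H : Open K ℓ κf α) : Step K ℓ κf α := by
  intro k
  obtain ⟨s₁, h1⟩ := H.tx k
  obtain ⟨s₂, h2⟩ := H.two k
  refine ⟨s₁ + s₂ + 1, fun m θ hθ hτ => ?_⟩
  intro h₀ hK hunb hst C _ hCm hs hCc ι j hj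
  rcases hj.lt_or_eq with hj' | rfl
  · exact hτ θ le_rfl (hθ.mono (by omega)) h₀ hK hunb hst C hCm hs hCc ι j (Nat.lt_succ_iff.1 hj')
  refine md_of h₀ hK hunb hst hCm hs hCc (Nat.succ_ne_zero k)
    (h1 m θ (hθ.mono (by omega)) hτ) fun σ hσ => ?_
  have hθ' : Rk K ℓ κf α ((m + (s₁ + s₂)) + 1) θ := hθ
  obtain ⟨τ, hστ, hτθ, hτr⟩ := hθ'.exists_btw hσ
  obtain ⟨h3, h4, h5⟩ := h2 m θ (hθ.mono (by omega)) hτ τ hτθ (hτr.mono (by omega))
  exact ⟨τ, hστ, hτθ, hτr.base, h1 m τ (hτr.mono (by omega)) (fun τ' h h' =>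
    hτ τ' (h.trans hτθ.le) h'), H.ch τ hτr.base, h3, h4, h5⟩

/-- **The question** from the open statements. -/
theorem q1_of_open (H : ∀ (L : Language.{u, u}) (K : AEC L) (ℓ : Cardinal.{u})
      (κf α : Cardinal.{u} → Cardinal.{u}), Frame K ℓ κf α → Open K ℓ κf α)
    (l : Cardinal.{u}) :
    ∃ μ : Cardinal.{u}, l ≤ μ ∧ ∀ (L : Language.{u, u}) (K : AEC L), K.LS ≤ l →
      ∀ κ, μ ≤ κ → K.CategoricalIn κ → ∀ κ', μ ≤ κ' → K.CategoricalIn κ' :=
  q1_of_step (fun L K ℓ κf α hF => step_of_open (H L K ℓ κf α hF)) l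

end

end Vale.Agent.P307.R2.H844
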