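import Vale.Agent.P307.R2.H578.JR1
import Vale.Agent.P307.R2.H578.JR3
import Vale.Agent.P307.R2.H533.One

/-!
Joint reflection over the union of the boundary and a set `R`, in the form which is used for the
shrinking of isolating sets.
-/

universe u v

open Set Cardinal Function

namespace Vale.Agent.P307.R2.H844

open Vale.Agent.P307.R2.H541 Vale.Agent.P307.R2.H541.PG Vale.Agent.P307.R2.H533
open Vale.Agent.P307.R2.H68 (Clo exists_clo)
open Vale.Agent.P307.R2.H578 (JRp)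

open scoped Classical

variable {ι : Type v} {C : Type u} {M : PG C} {τ d : Cardinal.{u}} {A : Finset ι → Set C}
  {F : Finset (Finset ι)} {s : Finset ι} {R N : Set C}

theorem jrp_mono (h : JRp M τ A F N) {N' : Set C} (hN : N' ⊆ N) : JRp M τ A F N' := by
  obtain ⟨φ, h1, h2⟩ := h
  exact ⟨φ, h1, fun H hH hHc => (h2 H hH hHc).mono le_rfl (inter_subset_inter_left H hN)⟩

/-- The small pieces of the boundary are reflected into the closed traces, over the small pieces of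
the closed traces of `X ∪ R`. -/
theorem hrefl_of_jrp (h : JRp M τ A s.ssubsets (ibd A s ∪ R)) :
    ∃ φ : Finset C → Set C, (∀ t, #(φ t) ≤ τ) ∧ ∀ H, Clo φ H → #H ≤ τ → ∀ d < τ,
      ∀ y ⊆ ibd A s, #y ≤ d → ∀ q ⊆ (ibd A s ∪ R) ∩ H, #q ≤ d →
        ∃ t ∈ M.G, (∀ a ∈ q, t a = a) ∧ ∀ a ∈ y, t a ∈ ibd A s ∩ H := by
  obtain ⟨φ, h1, h2⟩ := h
  refine ⟨φ, h1, fun H hH hHc d hd y hy hyc q hq hqc => ?_⟩
  obtain ⟨g, hg, h3, h4⟩ := h2 H hH hHc y (hy.trans iun_ssubsets.ge) (hyc.trans_lt hd) q hq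
    (hqc.trans_lt hd)
  refine ⟨g, hg, h3, fun a ha => ?_⟩
  obtain ⟨r, hr, har⟩ := hy ha
  exact ⟨⟨r, hr, (h4 r (Finset.mem_ssubsets.2 hr) a ha har).1⟩,
    (h4 r (Finset.mem_ssubsets.2 hr) a ha har).2⟩

/-- The form of the closed trace of a strong submodel: literally the hypothesis `hrefl` of
`pg_isol_shrinkL`, with `D := X ∩ H`, for every `B' ⊆ X` and every `T ⊆ R ∩ H`. -/
theorem hrefl_shr (h : JRp M τ A s.ssubsets (ibd A s ∪ R)) :
    ∃ φ : Finset C → Set C, (∀ t, #(φ t) ≤ τ) ∧ ∀ H, Clo φ H → #H ≤ τ → ∀ B' ⊆ ibd A s,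
      ∀ T ⊆ (ibd A s ∪ R) ∩ H, ∀ d < τ, ∀ ρ < τ, ∀ y ⊆ B', #y ≤ d → ∀ q ⊆ T, #q ≤ ρ →
        ∃ t ∈ M.G, (∀ x ∈ q, t x = x) ∧ ∀ x ∈ y, t x ∈ ibd A s ∩ H := by
  obtain ⟨φ, h1, h2⟩ := hrefl_of_jrp h
  refine ⟨φ, h1, fun H hH hHc B' hB' T hT d hd ρ hρ y hy hyc q hq hqc => ?_⟩
  exact h2 H hH hHc (max d ρ) (max_lt hd hρ) y (hy.trans hB') (hyc.trans (le_max_left d ρ)) q
    (hq.trans hT) (hqc.trans (le_max_right d ρ))

end Vale.Agent.P307.R2.H844
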