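import Vale.Agent.P307.R2.H296.TrIso
import Vale.Agent.P307.R2.H287.TopR
import Vale.Agent.P307.R2.H844.GlueH

/-!
Shrinking of isolating sets in the closed traces, from tiny isolating sets and joint reflection
over the union of the boundary and the isolated set.
-/

universe u v

open Set Cardinal Function

namespace Vale.Agent.P307.R2.H844

open Vale.Agent.P307.R2.H541 Vale.Agent.P307.R2.H541.PG Vale.Agent.P307.R2.H533
open Vale.Agent.P307.R2.H68 (Clo exists_clo)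
open Vale.Agent.P307.R2.H578 (JRp)
open Vale.Agent.P307.R2.H296

open scoped Classical

variable {ι : Type v} {C : Type u}

/-- **Trace isolation**, without saturation of the closed set: only the isolating set of the tuple
is moved, over the tuple and the pieces of `EX`. -/
theorem tr_isol' (M : PG C) {τ : Cardinal.{u}} (hτ : ℵ₀ ≤ τ) (hτM : τ ≤ M.χ) (hno : NoOrd M.G τ)
    {X EX e B : Set C} (hEXX : EX ⊆ X)
    (hrefl : ∀ q ⊆ EX, #q < τ → ∃ k ∈ M.G, (∀ x ∈ e, k x = x) ∧ (∀ x ∈ q, k x = x) ∧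
      ∀ b ∈ B, k b ∈ EX)
    (hec : #e < τ) (hBc : #B < τ) (h : M.Isol B X e) :
    ∃ B' ⊆ EX, #B' < τ ∧ M.Isol B' X e := by
  classical
  by_contra hneg
  obtain ⟨lam, hlam, hord⟩ := hno (max (#e) (#B)) (max_lt hec hBc)
  let W : Type u := lam.ord.ToType
  have hW : #W = lam := by rw [mk_toType, card_ord]
  let β : Type u := (B → C) × (e → C)
  have : Nonempty β := ⟨(fun b => b, fun x => x)⟩
  let P : W → (W → β) → β → Prop := fun i F uv =>
    (∀ b, uv.1 b ∈ EX) ∧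
    ∃ k ∈ M.G, (∀ b : B, k b = uv.1 b) ∧ (∀ x ∈ e, k x = x) ∧
      (∀ j < i, ∀ b, k ((F j).1 b) = (F j).1 b) ∧
      ∃ g ∈ M.G, (∀ j < i, ∀ b, g ((F j).1 b) = (F j).1 b) ∧ (∀ x : e, uv.2 x = k (g x)) ∧
        ¬ Cj M.G (Sum.elim (fun b : B => (b : C)) fun x : e => g x)
          (Sum.elim (fun b : B => (b : C)) fun x : e => (x : C))
  obtain ⟨F, hF⟩ := exists_wf_seq (β := β) P (by
    rintro i F F' hFF ⟨u, v⟩ ⟨h1, k, hk, h2, h3, h4, g, hg, h5, h6, h7⟩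
    refine ⟨h1, k, hk, h2, h3, fun j hj b => ?_, g, hg, fun j hj b => ?_, h6, h7⟩
    · rw [← hFF j hj]
      exact h4 j hj b
    · rw [← hFF j hj]
      exact h5 j hj b) (by
    intro i F hF
    have hic : #{j : W // j < i} < τ := by
      exact (mk_subtype_le _).trans_lt (hW.trans_lt hlam)
    let c : Set C := range fun q : {j : W // j < i} × B => (F q.1).1 q.2
    have hc : #c < τ := by
      refine mk_range_le.trans_lt ?_
      rw [mk_prod, lift_id, lift_id]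
      exact mul_lt_of_lt hτ hic hBc
    have hcEX : c ⊆ EX := by
      rintro _ ⟨q, rfl⟩
      exact (hF q.1.1 q.1.2).1 _
    have hcI : ¬ M.Isol c X e := fun hI => hneg ⟨c, hcEX, hc, hI⟩
    unfold PG.Isol at hcI
    push Not at hcI
    obtain ⟨g, hg, hgc, A, hA, hAc, hgA⟩ := hcI
    obtain ⟨k, hk, hke, hkc, hkB⟩ := hrefl c hcEX hc
    refine ⟨(fun b => k b, fun x => k (g x)), fun b => hkB b b.2, k, hk, fun b => rfl, hke,
      fun j hj b => hkc _ ⟨(⟨j, hj⟩, b), rfl⟩, g, hg, fun j hj b => hgc _ ⟨(⟨j, hj⟩, b), rfl⟩,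
      fun x => rfl, ?_⟩
    rintro ⟨t, ht, htt⟩
    obtain ⟨s, hs, hsA, hse⟩ := h t⁻¹ (M.G.inv_mem ht)
      (fun b hb => PG.fix_inv (htt (Sum.inl ⟨b, hb⟩))) A hA hAc
    obtain ⟨x, hx, hx'⟩ := hgA s hs hsA
    apply hx'
    rw [hse x hx, Equiv.Perm.inv_eq_iff_eq]
    exact (htt (Sum.inr ⟨x, hx⟩)).symm)
  -- the order property
  refine hord W hW.ge B e (le_max_right _ _) (le_max_left _ _) (fun i => (F i).1)
    (fun i => (F i).2) (Sum.elim (fun b : B => (b : C)) fun x : e => (x : C)) ?_ ?_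
  · intro x y hxy
    obtain ⟨-, k, hk, -, -, hk3, g, hg, hg1, hg2, -⟩ := hF y
    obtain ⟨-, t, ht, ht1, ht2, -, -⟩ := hF x
    refine ⟨t⁻¹ * (g⁻¹ * k⁻¹), M.G.mul_mem (M.G.inv_mem ht) (M.G.mul_mem (M.G.inv_mem hg)
      (M.G.inv_mem hk)), ?_⟩
    rintro (b | z)
    · rw [Equiv.Perm.mul_apply, Equiv.Perm.mul_apply]
      change t⁻¹ (g⁻¹ (k⁻¹ ((F x).1 b))) = b
      rw [PG.fix_inv (hk3 x hxy b), PG.fix_inv (hg1 x hxy b), ← ht1 b]
      exact PG.inv_ap t _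
    · rw [Equiv.Perm.mul_apply, Equiv.Perm.mul_apply]
      change t⁻¹ (g⁻¹ (k⁻¹ ((F y).2 z))) = z
      rw [hg2 z, PG.inv_ap, PG.inv_ap]
      exact PG.fix_inv (ht2 z z.2)
  · rintro x y hxy ⟨s, hs, hs'⟩
    obtain ⟨hx1, t, ht, ht1, ht2, -, g, hg, -, hg2, hg3⟩ := hF x
    obtain ⟨-, k, hk, hk1, -, hk3, -⟩ := hF y
    -- `s * k` fixes `B`, and `k` fixes the copy of `B` with the index `x`
    obtain ⟨h', hh', hA', he'⟩ := h (s * k)⁻¹ (M.G.inv_mem (M.G.mul_mem hs hk)) (by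
      intro b hb
      refine PG.fix_inv ?_
      rw [Equiv.Perm.mul_apply, hk1 ⟨b, hb⟩]
      exact hs' (Sum.inl ⟨b, hb⟩)) (range (F x).1) (by
        rintro _ ⟨b, rfl⟩
        exact hEXX (hx1 b)) (mk_range_le.trans_lt (hBc.trans_le hτM))
    apply hg3
    -- `k * h'` fixes the copy and maps `e` to `v x = t (g e)`
    refine ⟨t⁻¹ * (h'⁻¹ * k⁻¹) * t, M.G.mul_mem (M.G.mul_mem (M.G.inv_mem ht) (M.G.mul_mem
      (M.G.inv_mem hh') (M.G.inv_mem hk))) ht, ?_⟩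
    rintro (b | z)
    · change t⁻¹ (h'⁻¹ (k⁻¹ (t b))) = b
      rw [ht1 b, PG.fix_inv (hk3 x hxy b), PG.fix_inv (hA' _ ⟨b, rfl⟩), ← ht1 b]
      exact PG.inv_ap t _
    · change t⁻¹ (h'⁻¹ (k⁻¹ (t (g z)))) = z
      have h1 : k (h' z) = (F x).2 z := by
        have h2 : h' z = (s * k)⁻¹ z := he' z z.2
        have h3 : s ((F x).2 z) = z := hs' (Sum.inr z)
        rw [h2, mul_inv_rev, Equiv.Perm.mul_apply]
        have h4 : s⁻¹ (z : C) = (F x).2 z := by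
          rw [Equiv.Perm.inv_eq_iff_eq]
          exact h3.symm
        rw [h4]
        exact Equiv.apply_symm_apply k _
      have h5 : h'⁻¹ (k⁻¹ ((F x).2 z)) = z := by
        rw [← h1, PG.inv_ap, PG.inv_ap]
      rw [← hg2 z, h5]
      exact PG.fix_inv (ht2 z z.2)

/-- The tuples of size less than `τ` which are isolated over `X` are isolated by subsets of size
less than `τ`. -/
def TinyAt (M : PG C) (τ : Cardinal.{u}) (X : Set C) : Prop :=
  ∀ e : Set C, #e < τ → (∃ B ⊆ X, #B < M.χ ∧ M.Isol B X e) → ∃ B ⊆ X, #B < τ ∧ M.Isol B X e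

/-- **Shrinking in the closed traces** from tiny isolating sets and joint reflection over the
isolated sets. -/
theorem trR_of_tiny {M : PG C} {τ : Cardinal.{u}} (hτ : ℵ₀ ≤ τ) (hτM : τ ≤ M.χ)
    (hno : NoOrd M.G τ) {A : Finset ι → Set C} {s : Finset ι} (hTi : TinyAt M τ (ibd A s))
    (hJ : ∀ R ∈ M.T, (∃ B ⊆ ibd A s, #B < M.χ ∧ M.Isol B (ibd A s) R) →
      JRp M τ A s.ssubsets (ibd A s ∪ R)) : TrR M τ (ibd A s) := by
  refine ⟨fun R hR hRI => ?_⟩
  obtain ⟨φ, h1, h2⟩ := hrefl_of_jrp (hJ R hR hRI)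
  refine ⟨φ, h1, fun H hH hHc e he hec hB => ?_⟩
  obtain ⟨B₀, hB₀, hB₀I⟩ := hB
  obtain ⟨B, hBX, hBc, hBI⟩ := hTi e hec ⟨B₀, hB₀.trans inter_subset_left,
    (mk_le_mk_of_subset (hB₀.trans inter_subset_right)).trans_lt (M.T_card hR), hB₀I⟩
  refine tr_isol' M hτ hτM hno inter_subset_left (EX := ibd A s ∩ H) (fun q hq hqc => ?_)
    hec hBc hBI
  obtain ⟨t, ht, h3, h4⟩ := h2 H hH hHc (max (#B) (#(e ∪ q : Set C)))
    (max_lt hBc ((mk_union_le _ _).trans_lt (add_lt_of_lt hτ hec hqc))) B hBX (le_max_left _ _)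
    (e ∪ q) (union_subset (fun x hx => ⟨Or.inr (he hx).1, (he hx).2⟩)
      (fun x hx => ⟨Or.inl (hq hx).1, (hq hx).2⟩)) (le_max_right _ _)
  exact ⟨t, ht, fun x hx => h3 x (Or.inl hx), fun x hx => h3 x (Or.inr hx), h4⟩

end Vale.Agent.P307.R2.H844
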